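import Vale.Agent.P004Z.Sk.Stk
import Vale.Agent.P004N.H974.Fund

/-! # P004Z: fundamental measures of subgroups of finite index, unfolding of correspondences -/

open Complex UpperHalfPlane MeasureTheory Set
open scoped MatrixGroups Modular ENNReal

noncomputable section

namespace Vale.Agent.P004Z.W2

open Vale.Agent.P004.H26.H86 (sl_countable two_of meas_ofC)

/-- a weight for `Γ` -/
structure Wt (Γ : Subgroup SL(2, ℤ)) (w : ℍ → ℝ≥0∞) : Prop where
  meas : Measurable w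
  two : ∀ᵐ z : ℍ, ∑' γ : Γ, w (γ.1 • z) = 2

theorem mp (g : GL (Fin 2) ℝ) : MeasurePreserving (fun z : ℍ => g • z) := measurePreserving_smul g _

theorem mpS (g : SL(2, ℤ)) : MeasurePreserving (fun z : ℍ => g • z) := mp g

theorem embS (g : SL(2, ℤ)) : MeasurableEmbedding (fun z : ℍ => g • z) :=
  (MeasurableEquiv.smul (g : GL (Fin 2) ℝ)).measurableEmbedding

section
variable {Γ : Subgroup SL(2, ℤ)} {w : ℍ → ℝ≥0∞} {Δ ι : Type*} [Fintype ι]

theorem Wt.ker (hw : Wt Γ w) {a : Δ → GL (Fin 2) ℝ} (e : Γ × ι ≃ Δ)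
    (he : ∀ γ i (z : ℍ), a (e (γ, i)) • z = γ.1 • a (e (1, i)) • z) {Ψ : Δ → ℍ → ℝ≥0∞}
    (m : ∀ β, Measurable (Ψ β)) (h : ∀ γ i, Ψ (e (γ, i)) = Ψ (e (1, i))) :
    ∑' β, ∫⁻ z, w (a β • z) * (w z * Ψ β z) =
      2 * ∑ i, ∫⁻ z, Ψ (e (1, i)) z ∂volume.withDensity w := by
  have := sl_countable
  rw [← e.tsum_eq, ENNReal.tsum_prod', ENNReal.tsum_comm, tsum_fintype, Finset.mul_sum]
  refine Finset.sum_congr rfl fun i _ => ?_
  rw [tsum_congr fun γ => lintegral_congr fun z => by rw [he, h],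
    ← lintegral_tsum (f := fun (γ : Γ) z => w (γ.1 • a (e (1, i)) • z) * (w z * Ψ (e (1, i)) z))
      fun γ => (((hw.meas.comp (mpS γ.1).measurable).comp (mp _).measurable).mul
      (hw.meas.mul (m _))).aemeasurable, lintegral_withDensity_eq_lintegral_mul _ hw.meas (m _),
    ← lintegral_const_mul _ (hw.meas.mul (m _))]
  refine lintegral_congr_ae (((mp (a (e (1, i)))).quasiMeasurePreserving.ae hw.two).mono fun z k => ?_)
  simp only [Pi.mul_apply, ENNReal.tsum_mul_right, k]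

/-- the adjoint of a correspondence -/
theorem Wt.swap (hw : Wt Γ w) {a : Δ → GL (Fin 2) ℝ} (e : Γ × ι ≃ Δ)
    (he : ∀ γ i (z : ℍ), a (e (γ, i)) • z = γ.1 • a (e (1, i)) • z) (s : Δ ≃ Δ)
    (hs : ∀ β (z : ℍ), a (s β) • a β • z = z) {F F' : Δ → ℍ → ℂ} (m : ∀ β, Measurable (F β))
    (m' : ∀ β, Measurable (F' β)) (h : ∀ γ i, F (e (γ, i)) = F (e (1, i)))
    (h' : ∀ γ i, F' (e (γ, i)) = F' (e (1, i))) (k : ∀ β z, F (s β) (a β • z) = F' β z)
    (t : ∀ β, Integrable (F β) (volume.withDensity w))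
    (t' : ∀ β, Integrable (F' β) (volume.withDensity w)) :
    ∑ i, ∫ z, F (e (1, i)) z ∂volume.withDensity w =
      ∑ i, ∫ z, F' (e (1, i)) z ∂volume.withDensity w := by
  have q : ∀ {F : Δ → ℍ → ℂ}, (∀ β, Measurable (F β)) →
      (∀ β, Integrable (F β) (volume.withDensity w)) → ∑ i, ∫ z, F (e (1, i)) z ∂volume.withDensity w =
        ∫ x, x ∂∑ i, (volume.withDensity w).map (F (e (1, i))) := fun m t => by
    rw [integral_finsetSum_measure (f := fun x => x) fun i _ => (integrable_map_measure aestronglyMeasurable_id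
      (m _).aemeasurable).2 (t _)]
    exact Finset.sum_congr rfl fun i _ => (integral_map (m _).aemeasurable aestronglyMeasurable_id).symm
  rw [q m t, q m' t']
  congr 1
  refine Measure.ext_of_lintegral _ fun φ p => ?_
  simp only [lintegral_finsetSum_measure, lintegral_map p (m _), lintegral_map p (m' _)]
  refine (ENNReal.mul_right_inj two_ne_zero ENNReal.ofNat_ne_top).1 ?_
  rw [← hw.ker e he (Ψ := fun β z => φ (F β z)) (fun β => p.comp (m β)) fun γ i => by rw [h],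
    ← hw.ker e he (Ψ := fun β z => φ (F' β z)) (fun β => p.comp (m' β)) fun γ i => by rw [h'],
    ← s.tsum_eq]
  refine tsum_congr fun β => ?_
  rw [← (mp (a β)).lintegral_comp (f := fun z => w (a (s β) • z) * (w z * φ (F (s β) z)))
    ((hw.meas.comp (mp _).measurable).mul (hw.meas.mul (p.comp (m _))))]
  simp only [hs, k, mul_left_comm]

end

theorem meas_fd : MeasurableSet (𝒟 : Set ℍ) := ModularGroup.isClosed_fd.measurableSet

variable (Γ : Subgroup SL(2, ℤ))

/-- the standard weight -/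
def wt (z : ℍ) : ℝ≥0∞ := ∑' q : SL(2, ℤ) ⧸ Γ, (𝒟 : Set ℍ).indicator 1 (q.out • z)

/-- the standard fundamental measure -/
def fm : Measure ℍ := volume.withDensity (wt Γ)

theorem wt_wt : Wt Γ (wt Γ) := by
  have := sl_countable
  have : Countable (SL(2, ℤ) ⧸ Γ) := QuotientGroup.mk_surjective.countable
  refine ⟨Measurable.tsum fun q => (measurable_one.indicator meas_fd).comp (mpS _).measurable,
    two_of.mono fun z k => ?_⟩
  simp only [wt]
  rw [ENNReal.tsum_comm, ← ENNReal.tsum_prod, ← k, ← (Equiv.ofBijective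
    (fun x : (SL(2, ℤ) ⧸ Γ) × Γ => x.1.out * x.2.1) ⟨fun x y e => ?_, fun g => ?_⟩).tsum_eq]
  · exact tsum_congr fun x => congrArg _ (mul_smul x.1.out x.2.1 z).symm
  · have e1 : x.1 = y.1 := by
      simpa using congrArg (QuotientGroup.mk (s := Γ)) e
    refine Prod.ext e1 (Subtype.ext ?_)
    simpa [e1] using e
  · obtain ⟨h, e⟩ := QuotientGroup.mk_out_eq_mul Γ g
    exact ⟨(g, h⁻¹), by simp [e]⟩

theorem fm_eq [Fintype (SL(2, ℤ) ⧸ Γ)] :
    fm Γ = ∑ q : SL(2, ℤ) ⧸ Γ, (volume.restrict (𝒟 : Set ℍ)).map (q.out⁻¹ • ·) := by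
  refine Measure.ext_of_lintegral _ fun φ p => ?_
  rw [fm, lintegral_withDensity_eq_lintegral_mul _ (wt_wt Γ).meas p, lintegral_finsetSum_measure]
  simp only [wt, tsum_fintype, Pi.mul_apply, Finset.sum_mul]
  rw [lintegral_finsetSum _ (f := fun (q : SL(2, ℤ) ⧸ Γ) z => (𝒟 : Set ℍ).indicator 1 (q.out • z) * φ z) fun q _ =>
    ((measurable_one.indicator meas_fd).comp (mpS _).measurable).mul p]
  refine Finset.sum_congr rfl fun q _ => ?_
  rw [lintegral_map p (mpS _).measurable, ← lintegral_indicator meas_fd,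
    ← (mpS q.out⁻¹).lintegral_comp_emb (embS _)]
  refine lintegral_congr fun z => ?_
  by_cases k : z ∈ (𝒟 : Set ℍ) <;> simp [k]

instance [Γ.FiniteIndex] : IsFiniteMeasure (fm Γ) := by
  have := Subgroup.fintypeQuotientOfFiniteIndex (H := Γ)
  have : IsFiniteMeasure (volume.restrict (𝒟 : Set ℍ)) := ⟨by simpa using P004N.T3.fd_finite⟩
  rw [fm_eq]
  infer_instance

theorem img_fd : UpperHalfPlane.coe '' (𝒟 : Set ℍ) = FD := by
  have e : ∀ z : ℂ, 1 ≤ normSq z ↔ 1 ≤ ‖z‖ := fun z => by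
    rw [normSq_eq_norm_sq, one_le_sq_iff₀ (norm_nonneg _)]
  ext z
  exact ⟨fun ⟨τ, k, e'⟩ => e' ▸ ⟨k.2, (e _).1 k.1, τ.im_pos⟩,
    fun k => ⟨⟨z, k.2.2⟩, ⟨(e _).2 k.2.1, k.1⟩, rfl⟩⟩

theorem res_fd : volume.restrict (𝒟 : Set ℍ) = ((volume.restrict FD).withDensity
    fun z : ℂ => ((1 / ‖z.im‖₊) ^ 2 : NNReal)).map ofComplex := by
  have mF := Sk.closed_FD.measurableSet
  ext s hs
  rw [Measure.restrict_apply hs, volume_eq_lintegral, Measure.map_apply meas_ofC hs,
    withDensity_apply _ (meas_ofC hs), Measure.restrict_restrict (meas_ofC hs)]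
  congr 2
  rw [← img_fd]
  ext z
  exact ⟨fun ⟨τ, k, e⟩ => e ▸ ⟨by simpa using k.1, τ, k.2, rfl⟩,
    fun ⟨a, τ, k, e⟩ => ⟨τ, ⟨by simpa [← e] using a, k⟩, e⟩⟩

theorem den_eq (F : ℍ → ℂ) (z : ℂ) :
    ((1 / ‖z.im‖₊) ^ 2 : NNReal) • F (ofComplex z) = F (ofComplex z) / z.im ^ 2 := by
  simp only [NNReal.smul_def, NNReal.coe_pow, NNReal.coe_div, NNReal.coe_one, coe_nnnorm,
    Real.norm_eq_abs, div_pow, sq_abs, real_smul]
  push_cast
  ring

theorem int_fd {F : ℍ → ℂ} (m : Measurable F) :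
    ∫ z in (𝒟 : Set ℍ), F z = ∫ z in FD, F (ofComplex z) / z.im ^ 2 := by
  rw [res_fd, integral_map meas_ofC.aemeasurable m.aestronglyMeasurable,
    integral_withDensity_eq_integral_smul (by fun_prop)]
  simp only [den_eq]

theorem intOn_fd {F : ℍ → ℂ} (m : Measurable F) :
    IntegrableOn F (𝒟 : Set ℍ) ↔ IntegrableOn (fun z => F (ofComplex z) / z.im ^ 2) FD := by
  rw [IntegrableOn, res_fd, integrable_map_measure m.aestronglyMeasurable meas_ofC.aemeasurable,
    integrable_withDensity_iff_integrable_smul (by fun_prop)]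
  simp only [Function.comp, den_eq, IntegrableOn]

/-- the integral against the fundamental measure -/
theorem int_fm [Γ.FiniteIndex] {F : ℍ → ℂ} (m : Measurable F) (t : Integrable F (fm Γ)) :
    ∫ z, F z ∂fm Γ = ∑ᶠ q : SL(2, ℤ) ⧸ Γ, ∫ z in FD, F (q.out⁻¹ • ofComplex z) / z.im ^ 2 := by
  have := Subgroup.fintypeQuotientOfFiniteIndex (H := Γ)
  rw [fm_eq] at t ⊢
  rw [integral_finsetSum_measure (integrable_finsetSum_measure.1 t), finsum_eq_sum_of_fintype]
  refine Finset.sum_congr rfl fun q _ => ?_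
  exact (embS _).integral_map _ |>.trans (int_fd (m.comp (mpS _).measurable))

/-- invariant null sets -/
theorem ae_of_fm {p : ℍ → Prop} (h : ∀ᵐ z ∂fm Γ, p z) (i : ∀ γ ∈ Γ, ∀ z, p (γ • z) → p z) :
    ∀ᵐ z, p z := by
  have := sl_countable
  have a := (ae_withDensity_iff (wt_wt Γ).meas).1 h
  filter_upwards [(wt_wt Γ).two, ae_all_iff.2 fun γ : Γ => (mpS γ.1).quasiMeasurePreserving.ae a]
    with z k1 k2
  by_contra n
  rw [tsum_congr fun γ => by_contra fun e => n (i _ γ.2 z (k2 γ e)), tsum_zero] at k1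
  exact two_ne_zero k1.symm

end Vale.Agent.P004Z.W2
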