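import Vale.Agent.P004Z.St
import Vale.Agent.P004N.H65.Fin
import Vale.Agent.P004N.H65.Bound

/-! # P004Z: strong multiplicity one, the trivial bound -/

open UpperHalfPlane Filter

namespace Vale.Agent.P004Z

open P004N P004N.H461 P004N.H65

theorem triv : TRIV := fun N G a h p hp hN => by
  suffices k : |(a p : ℝ)| < p + 1 by
    have : |a p| < p + 1 := by exact_mod_cast k
    have := abs_lt.1 this
    omega
  by_contra! hcon
  have hp1 : (1 : ℝ) < p := by exact_mod_cast hp.one_lt
  have C := pfCf N G a h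
  have hg := rec_growth' (u := fun k => (a (p ^ k) : ℝ)) hp1 hcon (by simp [h.one]) (by simp)
    fun k => by exact_mod_cast C.good p hp hN k
  obtain ⟨C, δ, hδ, hb⟩ := pfPow N G a h
  obtain ⟨k, hk⟩ := (((tendsto_rpow_atTop hδ).comp
    (tendsto_pow_atTop_atTop_of_one_lt hp1)).eventually_gt_atTop C).exists
  have hx : (0 : ℝ) < (p : ℝ) ^ k := by positivity
  have h1 := hb (p ^ k) (Nat.one_le_pow _ _ hp.pos)
  have h2 := pow_le_pow_left₀ hx.le (hg k) 2
  have h4 := Real.rpow_add hx δ (2 - δ)
  rw [add_sub_cancel, Real.rpow_two] at h4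
  rw [sq_abs] at h2
  push_cast at h1
  have := mul_lt_mul_of_pos_right hk (Real.rpow_pos_of_pos hx (2 - δ))
  simp only [Function.comp] at this
  linarith

namespace W2

theorem te_mono {S S' : ℕ} (h : S ∣ S') {a : ℕ → ℤ} {c : ℕ → ℂ} (H : TE S a c) : TE S' a c :=
  fun p hp k => H p hp fun e => k (e.trans h)

theorem te_zero {S : ℕ} {a : ℕ → ℤ} {d : ℕ → ℂ} (H : TE S a d) (h1 : d 1 = 0) (h0 : d 0 = 0) (n : ℕ) :
    n.Coprime S → d n = 0 := by
  induction n using Nat.strong_induction_on with
  | _ n ih =>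
    intro c
    rcases Nat.eq_zero_or_pos n with rfl | hn
    · exact h0
    by_cases e : n = 1
    · rw [e, h1]
    obtain ⟨p, hp, k, rfl⟩ := Nat.exists_prime_and_dvd e
    have hk : k < p * k := by
      have := hp.one_lt
      have : 0 < k := Nat.pos_of_mul_pos_left hn
      nlinarith
    have := H p hp ((Nat.Prime.coprime_iff_not_dvd hp).1 (c.coprime_mul_right)) k
    rw [ih k hk c.coprime_mul_left] at this
    split_ifs at this with d
    · rw [ih (k / p) ((Nat.div_le_self _ _).trans_lt hk)
        (c.coprime_mul_left.coprime_dvd_left (Nat.div_dvd_of_dvd d))] at this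
      simpa using this
    · simpa using this

/-- the coefficients prime to the level -/
theorem off {N S : ℕ} (hN : 0 < N) (hS : S ≠ 0) {g : ℍ → ℂ} {d : ℕ → ℂ} (hg : S2 N g) (hd : QE g d)
    (h : ∀ n : ℕ, n.Coprime (S * N) → d n = 0) (n : ℕ) (hn : n.Coprime N) : d n = 0 := by
  classical
  obtain ⟨G, hG, q⟩ := H503.pfTwist N N (fun x => if IsUnit x then 1 else 0) g d hN hN
    (fun u x => by simp [← Units.val_pow_eq_pow_val]) hg hd
  obtain ⟨R, R0, c, k⟩ : ∃ R : ℕ, 0 < R ∧ N.Coprime R ∧
      ∀ m : ℕ, m.Coprime N → m.Coprime R → m.Coprime S := by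
    refine ⟨∏ p ∈ S.primeFactors with ¬ p ∣ N, p, Finset.prod_pos fun p k =>
      (Nat.prime_of_mem_primeFactors (Finset.mem_filter.1 k).1).pos, Nat.Coprime.prod_right fun p k =>
      ((Nat.prime_of_mem_primeFactors (Finset.mem_filter.1 k).1).coprime_iff_not_dvd.2
        (Finset.mem_filter.1 k).2).symm, fun m a b => Nat.coprime_of_dvd fun p hp e f => ?_⟩
    by_cases k : p ∣ N
    · exact hp.one_lt.ne' (Nat.eq_one_of_dvd_coprimes a e k)
    · exact hp.one_lt.ne' (Nat.eq_one_of_dvd_coprimes b e (Finset.dvd_prod_of_mem _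
        (Finset.mem_filter.2 ⟨Nat.mem_primeFactors.2 ⟨hp, f, hS⟩, k⟩)))
  have := coeff_zero_of_fun H503.pfQEu q (H503.pfSupp _ R G _ (by positivity) R0
    (c.mul_left (c.pow_left 2)) hG q fun m hm => by
      simp only [ZMod.isUnit_iff_coprime]
      split_ifs with e
      · rw [h m ((k m e hm).mul_right e), mul_zero]
      · exact zero_mul _) n
  rwa [if_pos ((ZMod.isUnit_iff_coprime _ _).2 hn), one_mul] at this

end W2

open W2

theorem smo : SMO := fun N S G a h hS g c hg hc ht => by
  refine h.uniq g c hg hc fun q hq hqN n => ?_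
  replace ht := te_mono (dvd_mul_right S N) ht
  induction n using Nat.strong_induction_on generalizing g c with
  | _ n ih =>
    have c0 := coeff0 H503.pfQEx H503.pfQEu h.pos hg hc
    by_cases e : n.Coprime N
    · have A := off h.pos hS (s2_comb 1 (-c 1) hg h.s2) (qe_comb 1 (-c 1) hc h.qe)
        (te_zero (a := a) (fun p hp k => hr_comb (d := fun n => a n) 1 (-c 1) (ht p hp k)
          (te_mono (dvd_mul_left N S) h.te p hp k)) (by simp [h.one]) (by simp [c0, h.zero]))
      have B : ∀ m : ℕ, m.Coprime N → c m = c 1 * a m := fun m k => by linear_combination A m k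
      have := h.te q hq hqN n
      rw [B n e, B _ ((hq.coprime_iff_not_dvd.2 hqN).mul_left e)]
      split_ifs at this ⊢ with d
      · rw [B _ (e.coprime_dvd_left (Nat.div_dvd_of_dvd d))]
        linear_combination c 1 * this
      · linear_combination c 1 * this
    rcases Nat.eq_zero_or_pos n with rfl | hn
    · simp [c0]
    obtain ⟨p, hp, ⟨k, rfl⟩, hpN⟩ := Nat.Prime.not_coprime_iff_dvd.1 e
    have hk : k < p * k := by
      have := hp.one_lt
      have : 0 < k := Nat.pos_of_mul_pos_left hn
      nlinarith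
    have := ih k hk _ _ (S2.up hp hpN (dvd_mul_left _ _) hg) (qe_U hc p hp.pos)
      (te_U hp (hpN.mul_left S) ht)
    have d : q ∣ p * k ↔ q ∣ k := ⟨fun e => ((Nat.Prime.dvd_mul hq).1 e).resolve_left fun e =>
      hqN (e.trans hpN), fun e => e.mul_left _⟩
    rw [mul_left_comm] at this
    simp only [d]
    split_ifs at this ⊢ with d
    · rwa [Nat.mul_div_assoc _ d]
    · exact this

end Vale.Agent.P004Z
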