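import Vale.Agent.P004Z.W2.Pet
import Vale.Agent.P004Z.W2.Smo
import Vale.Agent.P004Z.EF.Lat

/-! # P004Z: the space of cusp forms of weight two, an integral projector -/

open UpperHalfPlane MeasureTheory CongruenceSubgroup Polynomial
open scoped MatrixGroups ComplexConjugate

noncomputable section

namespace Vale.Agent.P004Z

open P004N P004N.H461 Vale.Agent.P027M.ES EF

namespace W2

theorem aeval_pair {A B : Type*} [AddCommGroup A] [AddCommGroup B] [Module ℂ B] (b : A →+ B →+ ℂ)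
    {f : Module.End ℤ A} {g : Module.End ℂ B} (h : ∀ x y, b (f x) y = b x (g y)) (p : ℤ[X]) :
    ∀ x y, b (aeval f p x) y = b x (aeval g p y) := by
  refine Polynomial.induction_on p (fun a x y => by simp)
    (fun p q hp hq x y => by simp [hp, hq]) fun n a k x y => ?_
  rw [pow_succ, ← mul_assoc, map_mul, aeval_X, Module.End.mul_apply, k, h, mul_assoc, ← pow_succ,
    pow_succ', mul_left_comm, map_mul (aeval g) X, aeval_X, Module.End.mul_apply]

theorem aeval_mem {B : Type*} [AddCommGroup B] [Module ℂ B] {g : Module.End ℂ B} {W : Submodule ℂ B}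
    (h : ∀ y ∈ W, g y ∈ W) (p : ℤ[X]) : ∀ y ∈ W, aeval g p y ∈ W := by
  refine Polynomial.induction_on p (fun a y k => by simpa using zsmul_mem k a)
    (fun p q hp hq y k => by simpa using add_mem (hp y k) (hq y k)) fun n a k y l => ?_
  rw [pow_succ, ← mul_assoc, map_mul, aeval_X]
  exact k _ (h y l)

/-- the expansions of the cusp forms -/
def VS (N : ℕ) : Submodule ℂ (ℕ → ℂ) where
  carrier := {c | ∃ g, S2 N g ∧ QE g c}
  add_mem' := fun ⟨_, a, b⟩ ⟨_, c, d⟩ => ⟨_, H65.s2_comb 1 1 a c, H65.qe_congr (H65.qe_comb 1 1 b d) (by simp)⟩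
  zero_mem' := ⟨0, .mk_sl Cusp.zero' fun _ _ => by simpa using sl_smul 0 0 _, fun z => by
    simp [hasSum_zero]⟩
  smul_mem' := fun k _ ⟨_, a, b⟩ => ⟨_, H65.s2_comb k 0 a a, H65.qe_congr (H65.qe_comb k 0 b b) (by simp)⟩

variable {N : ℕ}

/-- the form -/
def fo (v : VS N) : ℍ → ℂ := v.2.choose

theorem fo_s2 (v : VS N) : S2 N (fo v) := v.2.choose_spec.1

theorem fo_qe (v : VS N) : QE (fo v) v.1 := v.2.choose_spec.2

theorem fo_add (v w : VS N) : fo (v + w) = fo v + fo w := QE.ext (fo_qe _) (QE.add (fo_qe v) (fo_qe w))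

theorem fo_smul (k : ℂ) (v : VS N) : fo (k • v) = k • fo v := QE.ext (fo_qe _) (QE.smul (fo_qe v) k)

theorem fo_zero {v : VS N} (h : fo v = 0) : v = 0 :=
  Subtype.ext (funext (QE.zero_eq (h ▸ fo_qe v)))

theorem fo_prim (hN : 0 < N) (v : VS N) : Prim (fo v) (Pr v.1) :=
  prim_Pr (fo_qe v) (H65.coeff0 H503.pfQEx H503.pfQEu hN (fo_s2 v) (fo_qe v))

/-- the Hecke operator -/
def TV {l : ℕ} (hl : l.Prime) (h : ¬ l ∣ N) : Module.End ℂ (VS N) :=
  (TcL l).restrict fun _ ⟨_, a, b⟩ => ⟨_, S2.tp hl h a, qe_T b l hl.pos⟩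

theorem fo_T {l : ℕ} (hl : l.Prime) (h : ¬ l ∣ N) (v : VS N) : fo (TV hl h v) = Tp l (fo v) :=
  QE.ext (fo_qe _) (qe_T (fo_qe v) l hl.pos)

theorem per_eq {f F G : ℍ → ℂ} (h : Prim f F) (h' : Prim f G) (z w : ℍ) : F z - F w = G z - G w := by
  obtain ⟨c, e⟩ := h.exists_sub h'
  linear_combination e z - e w

/-- the periods -/
def pe (hN : 0 < N) (γ : SL(2, ℤ)) : Module.Dual ℂ (VS N) where
  toFun v := Pr v.1 (γ • I) - Pr v.1 I
  map_add' v w := (per_eq (fo_prim hN (v + w)) (fo_add v w ▸ (fo_prim hN v).add (fo_prim hN w)) _ _).trans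
    (by simp only [Pi.add_apply]; ring)
  map_smul' k v := (per_eq (fo_prim hN (k • v)) (fo_smul k v ▸ (fo_prim hN v).smul k) _ _).trans
    (by simp [mul_sub])

/-- the module of the periods -/
def PM (hN : 0 < N) : Submodule ℤ (Module.Dual ℂ (VS N)) :=
  Submodule.span ℤ (pe hN '' (Gamma0 N : Set SL(2, ℤ)))

theorem PM_fg (hN : 0 < N) : (PM hN).FG := by
  have : NeZero N := ⟨hN.ne'⟩
  have : Group.FG SL(2, ℤ) := Group.fg_iff.2 ⟨{ModularGroup.S, ModularGroup.T},
    SpecialLinearGroup.SL2Z_generators, Set.toFinite _⟩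
  let φ : Gamma0 N →* Multiplicative (Module.Dual ℂ (VS N)) := MonoidHom.mk'
    (fun γ => Multiplicative.ofAdd (pe hN γ)) fun γ δ => congrArg Multiplicative.ofAdd
      (LinearMap.ext fun v => addOn_ph (fo_s2 v) (fo_prim hN v) γ.1 γ.2 δ.1 δ.2)
  have h1 : φ.range.FG := Group.fg_iff_subgroup_fg _ |>.1 inferInstance
  have h2 : (AddSubgroup.toIntSubmodule (Subgroup.toAddSubgroup' φ.range)).FG :=
    (Submodule.fg_iff_addSubgroup_fg _).2 ((AddSubgroup.fg_iff_mul_fg _).2 h1)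
  refine Eq.subst (motive := Submodule.FG) (le_antisymm ?_ (Submodule.span_le.2 ?_)) h2
  · rintro _ ⟨γ, rfl⟩
    exact Submodule.subset_span ⟨γ.1, γ.2, rfl⟩
  · rintro _ ⟨γ, k, rfl⟩
    exact ⟨⟨γ, k⟩, rfl⟩

theorem PM_sep (hN : 0 < N) {v : VS N} (h : ∀ μ ∈ PM hN, μ v = 0) : v = 0 := by
  have : NeZero N := ⟨hN.ne'⟩
  refine fo_zero (by_contra fun n => ?_)
  obtain ⟨z, hz, w, -, e⟩ := ex_two (fo_s2 v) n (fo_prim hN v)
  obtain ⟨γ, k, q⟩ := (mem_Lam (fo_s2 v) (fo_prim hN v)).1 hz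
  have : z = 0 := (q I).symm.trans (h _ (Submodule.subset_span ⟨γ, k, rfl⟩))
  simp [this] at e

theorem fin_VS (hN : 0 < N) : FiniteDimensional ℂ (VS N) := by
  obtain ⟨s, e⟩ := PM_fg hN
  refine .of_injective (LinearMap.pi fun μ : s => μ.1) ((injective_iff_map_eq_zero _).2 fun v k =>
    PM_sep hN fun μ m => ?_)
  rw [← e] at m
  induction m using Submodule.span_induction with
  | mem x h => exact congrFun k ⟨x, h⟩
  | zero => rfl
  | add x y _ _ a b => simp [a, b]
  | smul a x _ b => simp [b]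

/-- the Hecke operators are integral -/
theorem T_int (hN : 0 < N) {l : ℕ} (hl : l.Prime) (h : ¬ l ∣ N) :
    ∃ p : ℤ[X], p.Monic ∧ aeval (TV hl h) p = 0 := by
  have st : ∀ μ ∈ PM hN, ((TV hl h).dualMap.restrictScalars ℤ) μ ∈ PM hN := fun μ m =>
    (Submodule.span_le (p := (PM hN).comap ((TV hl h).dualMap.restrictScalars ℤ))).2 (by
      rintro _ ⟨γ, k, rfl⟩
      obtain ⟨δ, a, b⟩ := (cor_T hl h).ex k
      have : (TV hl h).dualMap (pe hN γ) = ∑ i, pe hN (δ i) := LinearMap.ext fun v => by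
        rw [LinearMap.sum_apply]
        exact (per_eq (fo_prim hN (TV hl h v)) (by
          rw [fo_T]; exact (cor_T hl h).prim (fo_prim hN v)) _ _).trans
          (b _ _ (fo_s2 v) (fo_prim hN v) I)
      change (TV hl h).dualMap (pe hN γ) ∈ PM hN
      exact this ▸ Submodule.sum_mem (PM hN) fun i _ => Submodule.subset_span ⟨_, a i, rfl⟩) m
  have : Module.Finite ℤ (PM hN) := Module.Finite.iff_fg.2 (PM_fg hN)
  obtain ⟨p, m, e⟩ := LinearMap.exists_monic_and_aeval_eq_zero ℤ (LinearMap.restrict _ st)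
  refine ⟨p, m, LinearMap.ext fun v => PM_sep hN fun μ k => ?_⟩
  have := aeval_pair (A := PM hN) (AddMonoidHom.mk' (fun μ => μ.1.toAddMonoidHom) fun _ _ => rfl)
    (f := LinearMap.restrict _ st) (g := TV hl h) (fun _ _ => rfl) p ⟨μ, k⟩ v
  rw [e] at this
  exact this.symm

/-- the Petersson product -/
def pv (v w : VS N) : ℂ := pet2 N (fo v) (fo w)

theorem pv_add (hN : 0 < N) (u v w : VS N) : pv (u + v) w = pv u w + pv v w := by
  have : NeZero N := ⟨hN.ne'⟩
  have b := fun v : VS N => bq hN (fo_s2 v)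
  simp only [pv, pet2_eq (b _) (b _)]
  rw [← integral_add ((b _).int (b _) _) ((b _).int (b _) _), fo_add]
  simp only [petersson, Pi.add_apply, mul_add, add_mul]

theorem pv_smul (hN : 0 < N) (k : ℂ) (v w : VS N) :
    pv (k • v) w = k * pv v w ∧ pv v (k • w) = conj k * pv v w := by
  have : NeZero N := ⟨hN.ne'⟩
  have b := fun v : VS N => bq hN (fo_s2 v)
  simp only [pv, pet2_eq (b _) (b _), ← integral_const_mul]
  simp only [fo_smul, petersson, Pi.smul_apply, smul_eq_mul, map_mul, mul_assoc, mul_left_comm k,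
    and_self]

theorem semi (hN : 0 < N) {l : ℕ} (hl : l.Prime) (h : ¬ l ∣ N) (a : ℤ) (k : ℕ) (v : VS N)
    (e : ((TV hl h - a) ^ k) v = 0) : TV hl h v = (a : ℂ) • v := by
  have ns : ∀ v : VS N, (-1 : ℂ) • v = -v := fun v => neg_one_smul ℂ v
  have i : ∀ v, (TV hl h - a) v = TV hl h v + (-1 : ℂ) • (a : ℂ) • v := fun v => by
    rw [ns, show (a : ℂ) • v = a • v from Int.cast_smul_eq_zsmul ℂ a v]
    simp [sub_eq_add_neg]
  have s : ∀ v, (TV hl h - a) ((TV hl h - a) v) = 0 → (TV hl h - a) v = 0 := fun v e => by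
    refine fo_zero (pet2_zero hN (fo_s2 _) ?_)
    set u := (TV hl h - a) v with hu
    have t : pv (TV hl h v) u = pv v (TV hl h u) := by
      simp only [pv, fo_T, pet2_T hN hl h (fo_s2 _) (fo_s2 _)]
    rw [i, ns, add_neg_eq_zero] at e
    change pv u u = 0
    nth_rewrite 1 [hu]
    rw [i, pv_add hN, t, e, (pv_smul hN _ _ _).1, (pv_smul hN _ _ _).1, (pv_smul hN _ _ _).2]
    simp
  rw [← add_neg_eq_zero, ← ns, ← i]
  induction k generalizing v with
  | zero => rw [show v = 0 from e, map_zero]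
  | succ k ih => exact s v (ih _ (by rwa [pow_succ] at e))

end W2

open W2

theorem proj : PROJ := fun N S G a h hS hN => by
  classical
  have nd : ∀ l : PA S, ¬ l.1 ∣ N := fun l k => l.2.2 (k.trans hN)
  let T := fun l : PA S => TV l.2.1 (nd l)
  let K := fun l : PA S => Module.End.eigenspace (T l) (a l.1 : ℂ)
  have mk : ∀ l v, v ∈ K l ↔ H65.HR l.1 (a l.1) v.1 := fun l v =>
    Module.End.mem_eigenspace_iff.trans (Subtype.ext_iff.trans funext_iff)
  have : ∀ l : PA S, ∃ R : ℤ[X], R.eval (a l.1) ≠ 0 ∧ ∀ v, aeval (T l) R v ∈ K l := fun l => by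
    obtain ⟨p, m, e⟩ := T_int h.pos l.2.1 (nd l)
    obtain ⟨R, q, n⟩ := exists_eq_pow_rootMultiplicity_mul_and_not_dvd p m.ne_zero (a l.1)
    refine ⟨R, mt dvd_iff_isRoot.2 n, fun v => Module.End.mem_eigenspace_iff.2
      (semi h.pos _ _ _ (p.rootMultiplicity (a l.1)) _ ?_)⟩
    rw [q] at e
    simpa using LinearMap.congr_fun e v
  choose R R0 RK using this
  have := fin_VS h.pos
  obtain ⟨_, ⟨L, rfl⟩, mn⟩ := wellFounded_lt.has_min
    (Set.range fun L : List (PA S) => ⨅ l ∈ L, K l) ⟨_, [], rfl⟩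
  have all : ∀ l, ⨅ l ∈ L, K l ≤ K l := fun l => by
    have e := eq_of_le_of_not_lt (biInf_mono fun _ => List.mem_cons_of_mem l) (mn _ ⟨l :: L, rfl⟩)
    exact e ▸ biInf_le _ List.mem_cons_self
  refine ⟨(L.map fun l => aeval (FreeAlgebra.ι ℤ l) (R l)).prod, ?_, fun g c hg hc => ?_⟩
  · rw [map_list_prod]
    refine List.prod_ne_zero ?_
    simp only [List.map_map, List.mem_map, Function.comp, ← aeval_algHom_apply,
      FreeAlgebra.lift_ι_apply, coe_aeval_eq_eval, not_exists, not_and]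
    exact fun l _ => R0 l
  have e1 : ∀ (P : FreeAlgebra ℤ (PA S)) (v : VS N),
      FreeAlgebra.lift ℤ (fun l : PA S => TcL l.1) P v.1 = (FreeAlgebra.lift ℤ T P v).1 := fun P => by
    induction P using FreeAlgebra.induction with
    | grade0 r => simp
    | grade1 l => exact fun v => by simp only [FreeAlgebra.lift_ι_apply]; rfl
    | mul x y p q => exact fun v => by simp only [map_mul, Module.End.mul_apply, p, q]
    | add x y p q => exact fun v => by simp [p, q]
  have e2 : ∀ (L : List (PA S)) (v : VS N), ∀ l ∈ L, FreeAlgebra.lift ℤ T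
      (L.map fun l => aeval (FreeAlgebra.ι ℤ l) (R l)).prod v ∈ K l := fun L v => by
    induction L with
    | nil => simp
    | cons j L ih =>
      intro l m
      rw [List.map_cons, List.prod_cons, map_mul, ← aeval_algHom_apply, FreeAlgebra.lift_ι_apply,
        Module.End.mul_apply]
      by_cases e : l = j
      · exact e ▸ RK _ _
      · exact aeval_mem (fun y k => (mk _ _).2 (H65.hr_T l.2.1 j.2.1 (fun q => e (Subtype.ext q.symm))
          ((mk _ _).1 k))) _ _ (ih l ((List.mem_cons.1 m).resolve_left e))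
  rw [e1 _ ⟨c, g, hg, hc⟩]
  generalize hv : FreeAlgebra.lift ℤ T _ (⟨c, g, hg, hc⟩ : VS N) = v
  obtain ⟨κ, e⟩ := smo N S G a h hS _ _ (fo_s2 v) (fo_qe v) fun p hp n => (mk ⟨p, hp, n⟩ v).1
    (all _ ((Submodule.mem_iInf _).2 fun l => (Submodule.mem_iInf _).2 fun m => hv ▸ e2 L _ l m))
  exact ⟨κ, QE.unique (fo_qe v) ((funext e : fo v = κ • G) ▸ QE.smul h.qe κ)⟩

end Vale.Agent.P004Z
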