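import Vale.Agent.P004Z.St
import Vale.Agent.P004N.H503.Twist
import Vale.Agent.P004N.H974.Forms
import Vale.Agent.P004N.H461.Qe

/-! # P004Z: a double zero of the twisted `L`-function -/

open Complex UpperHalfPlane Filter Topology Set Asymptotics MeasureTheory
open scoped Real MatrixGroups ModularForm NumberTheorySymbols

namespace Vale.Agent.P004Z

open P004N

namespace W2

theorem coe_ofI {t : ℝ} (h : 0 < t) : (ofComplex (Complex.I * t) : ℂ) = Complex.I * t := by
  rw [ofComplex_apply_of_im_pos (by simpa using h)]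

theorem dec {N : ℕ} (hN : 0 < N) {H : ℍ → ℂ} (h : S2 N H) (g : SL(2, ℤ)) :
    (fun t : ℝ => (H ∣[(2 : ℤ)] g) (ofComplex (Complex.I * t))) =O[atTop]
      fun t => Real.exp (-(2 * π / N) * t) := by
  have e : ∀ᶠ t : ℝ in atTop, (ofComplex (Complex.I * t)).im = t :=
    (eventually_gt_atTop 0).mono fun t k => by rw [← coe_im, coe_ofI k]; simp
  refine (((h.zero g).exp_decay_atImInfty (Nat.cast_pos.2 hN) (T3.per h g) (T3.mdiff_slash h g)
    (T3.bdd_slash h g)).comp_tendsto (tendsto_comap_iff.2 (tendsto_id.congr' (e.mono fun _ k =>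
      k.symm)))).congr' .rfl (e.mono fun t k => ?_)
  simp only [Function.comp, k]
  congr 1
  ring

theorem dec_top {N : ℕ} (hN : 0 < N) {H : ℍ → ℂ} (h : S2 N H) :
    (fun t : ℝ => H (ofComplex (Complex.I * t))) =O[atTop] fun t => Real.exp (-(2 * π / N) * t) := by
  simpa only [SlashAction.slash_one] using dec hN h 1

theorem dec_bot {N : ℕ} (hN : 0 < N) {H : ℍ → ℂ} (h : S2 N H) :
    (fun t : ℝ => H (ofComplex (Complex.I * t))) =O[𝓝[>] 0] fun t => t ^ (-(0 : ℝ)) := by
  have p : (0 : ℝ) < 2 * π / N := by positivity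
  have a := (((dec hN h ModularGroup.S).trans (isLittleO_exp_neg_mul_rpow_atTop p (-2)).isBigO).mul
    (isBigO_refl (fun t : ℝ => (Complex.I * t) ^ 2) atTop).norm_right).comp_tendsto tendsto_inv_nhdsGT_zero
  refine a.congr' (eventually_mem_nhdsWithin.mono fun t (k : 0 < t) => ?_)
    (eventually_mem_nhdsWithin.mono fun t (k : 0 < t) => ?_)
  · have k' := inv_pos.2 k
    have n : (t : ℂ) ≠ 0 := by exact_mod_cast k.ne'
    have e : ModularGroup.S • ofComplex (Complex.I * (t⁻¹ : ℝ)) = ofComplex (Complex.I * t) := by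
      ext1
      rw [modular_S_smul, coe_ofI k]
      simp only [coe_ofI k']
      push_cast
      field_simp
      simp
    simp only [Function.comp, ModularForm.SL_slash_apply, e]
    rw [ModularGroup.denom_S, coe_ofI k']
    push_cast
    field_simp
  · simp only [Function.comp, norm_pow, norm_mul, norm_I, norm_real, one_mul, neg_zero, Real.rpow_zero,
      Real.norm_eq_abs, sq_abs]
    rw [Real.rpow_neg (inv_pos.2 k).le, Real.rpow_two]
    field_simp

theorem cont_ofI {H : ℍ → ℂ} (h : Continuous H) :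
    ContinuousOn (fun t : ℝ => H (ofComplex (Complex.I * t))) (Ioi 0) := fun t (k : 0 < t) =>
  (h.continuousAt.comp ((contMDiffAt_ofComplex (n := 0) (by simpa using k)).continuousAt.comp
    (f := fun t : ℝ => Complex.I * t) (by fun_prop))).continuousWithinAt

/-- the twist is a cusp form -/
theorem ex_tw {N δ : ℕ} {G : ℍ → ℂ} {a : ℕ → ℤ} (h : EF N G a) (hδ : 0 < δ) :
    ∃ H, S2 (N * δ ^ 2) H ∧ QE H fun n => ((a n * J(n | δ) : ℤ) : ℂ) := by
  have : NeZero δ := ⟨hδ.ne'⟩
  obtain ⟨H, s, q⟩ := H503.pfTwist N δ (fun x => (J(x.val | δ) : ℂ)) G _ h.pos hδ (fun u x => by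
    have e : J(((u : ZMod δ) ^ 2 * x).val | δ) = J((u : ZMod δ).val ^ 2 * x.val | δ) :=
      jacobiSym.mod_left' ((ZMod.intCast_eq_intCast_iff' _ _ _).1 (by simp))
    rw [e, jacobiSym.mul_left, jacobiSym.sq_one' (Int.gcd_natCast_natCast _ _ ▸ ZMod.val_coe_unit_coprime u), one_mul])
    h.s2 h.qe
  refine ⟨H, s, fun z => ?_⟩
  simpa only [ZMod.val_natCast, Int.natCast_mod, ← jacobiSym.mod_left, Int.cast_mul,
    mul_comm (a _ : ℂ)] using q z

end W2

open W2

theorem lf : LF := fun N G a δ Λ h ok an hs ord => by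
  have d0 : 0 < δ := one_pos.trans ok.one
  obtain ⟨H, s2, q⟩ := ex_tw h d0
  have hM : 0 < N * δ ^ 2 := mul_pos h.pos (pow_pos d0 2)
  set F := fun t : ℝ => H (ofComplex (Complex.I * t)) with hF
  have li : LocallyIntegrableOn F (Ioi 0) :=
    (cont_ofI s2.holo.continuous).locallyIntegrableOn measurableSet_Ioi
  have p : (0 : ℝ) < 2 * π / (N * δ ^ 2 : ℕ) := by positivity
  have hd : ∀ s : ℂ, 0 < s.re → HasDerivAt (mellin F) (mellin (fun t => Real.log t • F t) s) s :=
    fun s k => (mellin_hasDerivAt_of_isBigO_rpow li ((dec_top hM s2).trans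
      (isLittleO_exp_neg_mul_rpow_atTop p _).isBigO) (lt_add_one _) (dec_bot hM s2) k).2
  have o : IsOpen {s : ℂ | 0 < s.re} := isOpen_lt continuous_const continuous_re
  have sub : {s : ℂ | 1 ≤ s.re} ⊆ {s | 0 < s.re} := fun s (k : 1 ≤ s.re) => one_pos.trans_le k
  have a1 : AnalyticOnNhd ℂ (mellin F) {s | 1 ≤ s.re} := (DifferentiableOn.analyticOnNhd
    (fun s k => (hd s k).differentiableAt.differentiableWithinAt) o).mono sub
  have p2 : ((2 * π : ℝ) : ℂ) ≠ 0 := by exact_mod_cast Real.two_pi_pos.ne'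
  have a2 : AnalyticOnNhd ℂ (fun s => Gamma s / (2 * π : ℝ) ^ s) {s | 1 ≤ s.re} :=
    (DifferentiableOn.analyticOnNhd (fun s (k : 0 < s.re) => ((differentiableAt_Gamma s fun m e => by
      rw [e] at k
      simp only [neg_re, natCast_re] at k
      linarith [Nat.cast_nonneg (α := ℝ) m]).div (differentiableAt_id.const_cpow (.inl p2))
        (by simp)).differentiableWithinAt) o).mono sub
  have eq := a1.eqOn_of_preconnected_of_eventuallyEq (a2.mul an) (convex_halfSpace_re_ge 1).isPreconnected
    (z₀ := 2) (by norm_num) (((isOpen_lt continuous_const Complex.continuous_re).eventually_mem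
      (show (2 : ℂ) ∈ {s : ℂ | 3 / 2 < s.re} by norm_num)).mono fun s (k : 3 / 2 < s.re) => by
    have z : ((a 0 * J((0 : ℕ) | δ) : ℤ) : ℂ) = 0 := by simp [jacobiSym.zero_left ok.one]
    refine (hasSum_mellin (a := fun n : ℕ => ((a n * J(n | δ) : ℤ) : ℂ)) (p := fun n => 2 * π * n)
      (fun n => ?_) (by linarith) (fun t (k : 0 < t) => ?_) ?_).unique ?_
    · rcases Nat.eq_zero_or_pos n with rfl | e
      · exact .inl z
      · exact .inr (by positivity)
    · convert q (ofComplex (Complex.I * t)) using 3 with n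
      rw [coe_ofI k]
      push_cast
      congr 1
      linear_combination -(2 * π * n * t : ℂ) * I_sq
    · refine ((summable_norm_iff.2 (hs s k).summable).div_const ((2 * π) ^ s.re)).congr fun n => ?_
      rw [LSeries.norm_term_eq]
      split_ifs with e
      · rw [e, z]
        simp
      · rw [Real.mul_rpow (x := 2 * π) (by positivity) (by positivity)]
        ring
    · refine ((hs s k).mul_left (Gamma s / (2 * π : ℝ) ^ s)).congr_fun' fun n => ?_
      rw [LSeries.term_def]
      split_ifs with e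
      · rw [e, z]
        simp
      · rw [ofReal_mul (2 * π), mul_cpow_ofReal_nonneg (by positivity) (by positivity), ofReal_natCast]
        ring)
  have m1 : (1 : ℂ) ∈ {s : ℂ | 1 ≤ s.re} := by simp
  have ev := ((a1 1 m1).frequently_eq_iff_eventually_eq ((a2.mul an) 1 m1)).1 (by
    have t : Tendsto (fun x : ℝ => (x : ℂ)) (𝓝[>] 1) (𝓝[≠] 1) :=
      tendsto_nhdsWithin_iff.2 ⟨(continuous_ofReal.tendsto' 1 1 rfl).mono_left nhdsWithin_le_nhds,
        eventually_mem_nhdsWithin.mono fun x (k : 1 < x) (e : (x : ℂ) = 1) => k.ne' (by exact_mod_cast e)⟩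
    exact t.frequently (Eventually.frequently (eventually_mem_nhdsWithin.mono fun x (k : 1 < x) =>
      eq (by simpa using k.le))))
  obtain ⟨g, ag, eg⟩ := (natCast_le_analyticOrderAt (n := 2) (an 1 m1)).1 ord
  have e2 : mellin F =ᶠ[𝓝 1] fun s => (s - 1) ^ 2 * (Gamma s / (2 * π : ℝ) ^ s * g s) := by
    filter_upwards [ev, eg] with s k1 k2
    simp only [k1, k2, smul_eq_mul]
    ring
  have tF : ∀ t ∈ Ioi (0 : ℝ), tw a δ (Complex.I * t) = F t := fun t k => by
    have := (q (ofComplex (Complex.I * t))).tsum_eq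
    rw [coe_ofI k] at this
    simpa only [tw, ee, mul_assoc] using this
  constructor
  · have := e2.eq_of_nhds
    simp only [mellin, sub_self, cpow_zero, one_smul, ne_eq, OfNat.ofNat_ne_zero, not_false_eq_true,
      zero_pow, zero_mul] at this
    exact (setIntegral_congr_fun measurableSet_Ioi tF).trans this
  · have := (hd 1 (by simp)).unique (((((hasDerivAt_id (1 : ℂ)).sub_const 1).pow 2).mul
      ((a2 1 m1).mul ag).differentiableAt.hasDerivAt).congr_of_eventuallyEq e2)
    simp only [mellin, sub_self, cpow_zero, one_smul] at this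
    refine (setIntegral_congr_fun measurableSet_Ioi fun t k => ?_).trans (this.trans (by simp))
    simp only [tF t k, real_smul, mul_comm]

end Vale.Agent.P004Z
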