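import Vale.Agent.P004Z.W2.Wt
import Vale.Agent.P004N.H461.UIf

/-! # P004Z: the Petersson product in weight two -/

open Complex UpperHalfPlane MeasureTheory Set CongruenceSubgroup
open scoped MatrixGroups Modular ModularForm ComplexConjugate

noncomputable section

namespace Vale.Agent.P004Z

open P004N P004N.H461

namespace W2

/-- continuous, with bounded invariant norm -/
def Bq (g : ℍ → ℂ) : Prop := Continuous g ∧ ∃ C, ∀ z, ‖g z‖ * z.im ≤ C

variable {N : ℕ} {g h : ℍ → ℂ}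

theorem bq (hN : 0 < N) (hg : S2 N g) : Bq g := by
  obtain ⟨C, -, k⟩ := T3.G_bdd hN hg
  exact ⟨hg.holo.continuous, √C, fun z => Real.le_sqrt_of_sq_le ((mul_pow _ _ 2).trans_le (k z))⟩

theorem norm_pt (g h : ℍ → ℂ) (z : ℍ) : ‖petersson 2 h g z‖ = ‖h z‖ * z.im * (‖g z‖ * z.im) := by
  simp only [petersson, norm_mul, norm_conj, norm_real, Real.norm_of_nonneg z.im_pos.le,
    zpow_two]
  ring

theorem pt_sl {m : M2} (d : 0 < m.det) (g h : ℍ → ℂ) (z : ℍ) :
    petersson 2 (sl h m) (sl g m) z = petersson 2 h g (gl m d • z) := by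
  rw [sl_pos _ _ d, sl_pos _ _ d, petersson_slash, σ_gl]
  simp

theorem bq_sl (hN : 0 < N) (hg : S2 N g) {m : M2} (d : 0 < m.det) : Bq (sl g m) := by
  obtain ⟨-, C, k⟩ := bq hN hg
  refine ⟨(mdiff_sl hg.holo m).continuous, C, fun z => ?_⟩
  have e := congrArg norm (pt_sl d g g z)
  rw [norm_pt, norm_pt] at e
  have p : ∀ (f : ℍ → ℂ) (z : ℍ), 0 ≤ ‖f z‖ * z.im := fun f z => mul_nonneg (norm_nonneg _) z.im_pos.le
  exact ((mul_self_inj (p _ _) (p _ _)).1 e).trans_le (k _)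

theorem Bq.meas (hg : Bq g) (hh : Bq h) : Measurable (petersson 2 h g) :=
  (petersson_continuous 2 hh.1 hg.1).measurable

theorem Bq.bd (hg : Bq g) (hh : Bq h) : ∃ C, ∀ z, ‖petersson 2 h g z‖ ≤ C := by
  obtain ⟨C, k⟩ := hg.2
  obtain ⟨D, l⟩ := hh.2
  have p : ∀ (f : ℍ → ℂ) (z : ℍ), 0 ≤ ‖f z‖ * z.im := fun f z => mul_nonneg (norm_nonneg _) z.im_pos.le
  exact ⟨D * C, fun z => norm_pt g h z ▸ mul_le_mul (l z) (k z) (p _ _) ((p _ _).trans (l z))⟩

theorem Bq.int (hg : Bq g) (hh : Bq h) (μ : Measure ℍ) [IsFiniteMeasure μ] :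
    Integrable (petersson 2 h g) μ :=
  let ⟨C, k⟩ := hg.bd hh
  .of_bound (hg.meas hh).aestronglyMeasurable C (.of_forall k)

theorem pet2_eq [NeZero N] (hg : Bq g) (hh : Bq h) :
    pet2 N g h = ∫ z, petersson 2 h g z ∂fm (Gamma0 N) :=
  (int_fm _ (hg.meas hh) (hg.int hh _)).symm

theorem pet2_zero (hN : 0 < N) (hg : S2 N g) (e : pet2 N g g = 0) : g = 0 := by
  have : NeZero N := ⟨hN.ne'⟩
  have b := bq hN hg
  have p : ∀ z, petersson 2 g g z = (‖petersson 2 g g z‖ : ℝ) := fun z => by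
    rw [norm_pt, petersson, conj_mul', zpow_two]
    push_cast
    ring
  rw [pet2_eq b b, integral_congr_ae (.of_forall p), integral_complex_ofReal, ofReal_eq_zero,
    integral_eq_zero_iff_of_nonneg (fun _ => norm_nonneg _) (b.int b _).norm] at e
  have a := ae_of_fm _ (p := fun z => ‖petersson 2 g g z‖ = 0) e fun γ k z q => by
    rwa [← petersson_slash_SL, hg.slash γ k] at q
  funext z
  by_contra n
  refine (T3.open_pos (isOpen_ne_fun b.1 continuous_const) ⟨z, n⟩).ne' (measure_mono_null ?_ a)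
  intro w k q
  have := w.im_pos
  have : 0 < ‖g w‖ := norm_pos_iff.2 k
  have q : ‖petersson 2 g g w‖ = 0 := q
  rw [norm_pt] at q
  exact absurd q (by positivity)

theorem pt_sum {ι : Type*} (s : Finset ι) (f : ι → ℍ → ℂ) (h : ℍ → ℂ) (z : ℍ) :
    petersson 2 h (∑ i ∈ s, f i) z = ∑ i ∈ s, petersson 2 h (f i) z ∧
      petersson 2 (∑ i ∈ s, f i) h z = ∑ i ∈ s, petersson 2 (f i) h z := by
  simp [petersson, Finset.sum_mul, Finset.mul_sum]

theorem pet2_T (hN : 0 < N) {l : ℕ} (hl : l.Prime) (hlN : ¬ l ∣ N) (hg : S2 N g) (hh : S2 N h) :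
    pet2 N (Tp l g) h = pet2 N g (Tp l h) := by
  have : NeZero N := ⟨hN.ne'⟩
  have l0 : (0 : ℤ) < l := by exact_mod_cast hl.pos
  have ad : ∀ i, 0 < (al l i).det := fun i => (al_det l i).symm ▸ l0
  let Δ := {m : M2 // m.det = l ∧ (N : ℤ) ∣ m 1 0}
  have d : ∀ β : Δ, 0 < β.1.det := fun β => β.2.1.symm ▸ l0
  have a0 : ∀ i, al l i 1 0 = 0 := fun i => by cases i <;> simp [al]
  let e : Gamma0 N × Option (Fin l) ≃ Δ := .ofBijective (fun x => ⟨x.1.1.1 * al l x.2,
    by simp [al_det], by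
      simpa [Matrix.mul_apply, a0] using ((G0_iff N _).1 x.1.2).2.mul_right _⟩) ⟨fun x y k => by
      have k : x.1.1.1 * al l x.2 = y.1.1.1 * al l y.2 := congrArg Subtype.val k
      have i : x.2 = y.2 := al_inj hl _ _ (x.1.1⁻¹ * y.1.1).1 (x.1.1⁻¹ * y.1.1).2 (by
        rw [Matrix.SpecialLinearGroup.coe_mul, Matrix.mul_assoc, ← k, ← Matrix.mul_assoc,
          ← Matrix.SpecialLinearGroup.coe_mul, inv_mul_cancel]
        simp)
      rw [i] at k
      exact Prod.ext (Subtype.ext (Subtype.ext (mul_right_cancel_det (ad _) k))) i, fun β => by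
      obtain ⟨j, δ, k, q⟩ := al_rep hl hlN β.1 β.2.1 β.2.2
      exact ⟨(⟨⟨δ, k.1⟩, (G0_iff N _).2 k⟩, j), Subtype.ext q.symm⟩⟩
  have ev : ∀ γ i, (e (γ, i)).1 = γ.1.1 * al l i := fun _ _ => rfl
  have e1 : ∀ i, (e (1, i)).1 = al l i := fun i => (ev 1 i).trans (by simp)
  let s : Δ ≃ Δ := Function.Involutive.toPerm (fun β => ⟨β.1.adjugate, by
    simp [Matrix.det_adjugate, β.2.1], by simpa [Matrix.adjugate_fin_two] using β.2.2⟩) fun β =>
      Subtype.ext (by
        simp only [Matrix.adjugate_fin_two]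
        ext i j
        fin_cases i <;> fin_cases j <;> simp)
  have sv : ∀ β : Δ, (s β).1 * β.1 = !![(l : ℤ), 0; 0, l] := fun β => by
    refine (Matrix.adjugate_mul β.1).trans ?_
    rw [β.2.1]
    ext i j
    fin_cases i <;> fin_cases j <;> simp
  have iv : ∀ {f}, S2 N f → ∀ γ i, sl f (e (γ, i)).1 = sl f (e (1, i)).1 := fun hf γ i => by
    rw [ev, e1, sl_mul _ _ _ (by simp) (ad i), hf.inv ((G0_iff N _).1 γ.2)]
  have b := bq hN hg
  have b' := bq hN hh
  have := (wt_wt (Gamma0 N)).swap (a := fun β => gl β.1 (d β)) e (fun γ i z => by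
      rw [ModularGroup.sl_moeb, ← mul_smul, ← gl_SL, ← gl_mul _ _ _ _ (by simpa using d _)]
      simp [ev]) s (fun β z => by
      rw [← mul_smul, ← gl_mul _ _ _ _ (by rw [Matrix.det_mul]; exact mul_pos (d _) (d _))]
      ext1
      have : (l : ℂ) ≠ 0 := by exact_mod_cast hl.pos.ne'
      simp [coe_smul_gl, sv, this])
    (F := fun β => petersson 2 h (sl g β.1)) (F' := fun β => petersson 2 (sl h β.1) g)
    (fun β => (bq_sl hN hg (d β)).meas b') (fun β => b.meas (bq_sl hN hh (d β)))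
    (fun γ i => by rw [iv hg]) (fun γ i => by rw [iv hh])
    (fun β z => by rw [← pt_sl, ← sl_mul _ _ _ (d _) (d _), sv, sl_scalar _ _ l0])
    (fun β => (bq_sl hN hg (d β)).int b' (fm _)) fun β => b.int (bq_sl hN hh (d β)) (fm _)
  rw [pet2_eq (bq hN (S2.tp hl hlN hg)) b', pet2_eq b (bq hN (S2.tp hl hlN hh))]
  simp only [Tp, (pt_sum _ _ _ _).1, (pt_sum _ _ _ _).2]
  rw [integral_finsetSum _ fun i _ => (bq_sl hN hg (ad i)).int b' _,
    integral_finsetSum _ fun i _ => b.int (bq_sl hN hh (ad i)) _]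
  simpa only [e1, fm] using this

end W2

open W2

theorem pet2_all : PET2 := fun N hN => by
  refine ⟨fun g h hg hh γ => ?_, fun g => pet2_zero hN, fun l g h g' h' c e hl hlN hg hh qc qe q1 q2 => ?_⟩
  · have : IsFiniteMeasure (volume.restrict (𝒟 : Set ℍ)) := ⟨by simpa using T3.fd_finite⟩
    have m := ((bq hN hg).meas (bq hN hh)).comp (mpS γ).measurable
    obtain ⟨C, k⟩ := (bq hN hg).bd (bq hN hh)
    exact (intOn_fd m).1 (Integrable.of_bound m.aestronglyMeasurable C (.of_forall fun z => k _))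
  · rw [QE.ext q1 (qe_T qc l hl.pos), QE.ext q2 (qe_T qe l hl.pos), pet2_T hN hl hlN hg hh]

end Vale.Agent.P004Z
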